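import Vale.Agent.P106.R.C.Defs2
import Vale.Agent.P122.C.RVDefs
import Vale.Agent.P127.U.Blocks1

/-!
# P106 / R / E : regular multiscale systems on the radially truncated cone (helper425; copy of P122 / E / Defs)

`K` levels, scale `L = K n`, all entropies divided by `L log 2`.  Level `c` : planks of radius `2^(c n)`, length `2^(2 c n)`,
thickness `2^(h n)`, exponents `c / K`, `2 c / K`, `h / K`.  Price `A = N` (real): the numbers `3` of `P122` are `N + 1`.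

* `Flg K` : system of flags; `F.N c` the node (plank) of level `c`.
* `Cnt`, `Unf`, `Rare` : counts on the support, upper bounds of probabilities, exponentially small events; they pass to
  dense laws `Dns`.
* boxes are random REAL conformal boxes `W.Cbx` (helper117), no rounding, in absolute coordinates.
* everything which uses a piece `sig c d` is for `2 (d - c) ≤ h` only.
-/

set_option autoImplicit false

namespace Vale.Agent.P106.R.E

open Filter Topology Finset Vale.Agent.P127 Vale.Agent.P127.Stk Vale.Agent.P127.U Vale.Agent.P127.U.Sys Vale.Agent.P106.R.C2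
open Vale.Agent.P106.W (Cbx)

/-! ### counts on the support -/

section counts

variable (S : Sys) {α β : Type*}

/-- on the support `X` takes at most `2^(r L + o(L))` values for each value of `Z` -/
def Cnt (X : S.RV α) (Z : S.RV β) (r : ℝ) : Prop :=
  ∀ ε : ℝ, 0 < ε → ∀ᶠ i in (uf : Filter ℕ), ∀ ω, 0 < (S.P i).w ω →
    ∃ U : Finset α, (U.card : ℝ) ≤ (2 : ℝ) ^ ((r + ε) * S.L i) ∧
      ∀ ω', 0 < (S.P i).w ω' → Z i ω' = Z i ω → X i ω' ∈ U

/-- all values of `X` have probability at most `2^(-r L + o(L))` -/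
def Unf (X : S.RV α) (r : ℝ) : Prop :=
  ∀ ε : ℝ, 0 < ε → ∀ᶠ i in (uf : Filter ℕ), ∀ ω,
    (S.P i).pr (X i) (X i ω) ≤ (2 : ℝ) ^ ((-r + ε) * S.L i)

open Classical in
/-- probability of an event -/
noncomputable def prb (E : ∀ i, S.Ω i → Prop) (i : ℕ) : ℝ := (S.P i).ex fun ω => if E i ω then 1 else 0

/-- exponentially small event -/
def Rare (E : ∀ i, S.Ω i → Prop) : Prop :=
  ∃ η : ℝ, 0 < η ∧ ∀ᶠ i in (uf : Filter ℕ), prb S E i ≤ (2 : ℝ) ^ (-(η * S.L i))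

end counts

/-- `S'` is dense in `S` : the law of `π` is at most `2^(o(L))` times the law of `S` -/
structure Dns (S' S : Sys) where
  π : ∀ i, S'.Ω i → S.Ω i
  L_eq : S'.L = S.L
  dom : ∀ ε : ℝ, 0 < ε → ∀ᶠ i in (uf : Filter ℕ), ∀ ω,
    (S'.P i).pr (π i) ω ≤ (2 : ℝ) ^ (ε * S.L i) * (S.P i).w ω

/-- pull back of a variable -/
def Dns.pull {S' S : Sys} {α : Type*} (d : Dns S' S) (X : S.RV α) : S'.RV α := fun i ω => X i (d.π i ω)

/-! ### systems of flags -/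

/-- a system of flags: `N c` is the node of level `c ≤ K` -/
structure Flg (K : ℕ) where
  C : ℝ
  S : Sys
  n : ℕ → ℕ
  L_eq : ∀ i, S.L i = K * n i
  s : ℕ → Sl
  h : ℕ
  hs : ∀ i, (s i).h = h
  h2 : 2 ≤ h
  hK : h ≤ K
  slp : ∀ i, Slp C (n i) K (s i)
  N : ℕ → S.RV Nd
  root : ∀ i ω, 0 < (S.P i).w ω → (N 0 i ω).τ = 0 ∧ 0 ≤ (N 0 i ω).T ∧ (N 0 i ω).T < 2 ^ (2 * K * n i)
  top : ∀ i ω, 0 < (S.P i).w ω → (∀ k, |((N K i ω).o k : ℝ)| ≤ C * 2 ^ (K * n i)) ∧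
    |((N K i ω).w : ℝ)| * 2 ^ (h * n i) ≤ C * 2 ^ (2 * K * n i)
  step : ∀ i ω, 0 < (S.P i).w ω → ∀ c, c < K → (N (c + 1) i ω).τ ∈ kids (n i) (N c i ω).τ ∧
    N (c + 1) i ω = ((N c i ω).sg (n i)).ch (s i) (n i) c (N (c + 1) i ω).τ

/-- index of the adapted coordinate of the piece of radius `2^(d n)` (cap of level `2 c - d`) around the plank `S` of level
`c`, at the corner of the piece -/
noncomputable def wsg (n h c d : ℕ) (S : Nd) : ℤ :=
  S.w + ⌊(∑ k, (-((2:ℝ) ^ (d * n) * ((S.o k / 2 ^ ((d - c) * n) : ℤ) : ℝ)) *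
      (W.s0 n (2 * c - d) (fun k => S.τ k / 2 ^ ((d - c) * n)) k - W.s0 n c S.τ k) +
    (S.T : ℝ) * 2 ^ (2 * c * n) *
      (W.s0 n (2 * c - d) (fun k => S.τ k / 2 ^ ((d - c) * n)) k ^ 2 - W.s0 n c S.τ k ^ 2) / 2)) / 2 ^ (h * n)⌋

/-- position of the plank `S` of level `c` at the beginning of its time block, divided by `2^(2 c n)` -/
noncomputable def py (n c : ℕ) (S : Nd) : Fin 2 → ℝ := fun j => (S.o j : ℝ) / 2 ^ (c * n)

/-- adapted coordinate of the plank `S` of level `c` (time measured from the beginning of its block), divided by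
`2^(2 c n)` -/
noncomputable def pz (s : Sl) (n c : ℕ) (S : Nd) : ℝ :=
  (S.w : ℝ) * 2 ^ (s.h * n) / 2 ^ (2 * c * n) - (S.T : ℝ) * (∑ k, s c S.τ k ^ 2) / 2

/-- the plank `S` of level `c` is in the box `B` -/
def InP (s : Sl) (n c : ℕ) (B : Cbx) (S : Nd) : Prop := B.In (W.hh n s.h c) (py n c S) (s c S.τ) (pz s n c S)

/-- admissible boxes of level `c` for pieces of radius `2^(q n)`, `c ≤ q` -/
def Okb (s : Sl) (n c q : ℕ) (B : Cbx) : Prop := B.ok (1 / 8) (2 ^ (q * n) / 2 ^ (2 * c * n)) (W.hh n s.h c)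

/-- volume of the box divided by the volume of a plank of level `c` -/
noncomputable def bvol (s : Sl) (n c : ℕ) (B : Cbx) : ℝ := B.vol ((1 / 2 : ℝ) ^ (c * n)) (W.hh n s.h c)

namespace Flg

variable {K : ℕ} (F : Flg K)

/-- the starting cell -/
def x : F.S.RV Nd := F.N 0

/-- the cap of level `c` -/
def Y (c : ℕ) : F.S.RV Z2 := fun i ω => (F.N c i ω).τ

/-- the time block of level `c` -/
def T (c : ℕ) : F.S.RV ℤ := fun i ω => (F.N c i ω).T

/-- the piece of radius `c + 1` and length `2 c` around the tube of level `c`, with its cap -/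
noncomputable def sg (c : ℕ) : F.S.RV Nd := fun i ω => (F.N c i ω).sg (F.n i)

/-- the piece of radius `d` and length `2 c` (cap of level `2 c - d`) around the plank of level `c`; `w` = index of its
adapted coordinate, thickness `2^(h n)` -/
noncomputable def sig (c d : ℕ) : F.S.RV Nd := fun i ω =>
  ⟨fun k => (F.N c i ω).τ k / 2 ^ ((d - c) * F.n i), fun k => (F.N c i ω).o k / 2 ^ ((d - c) * F.n i), (F.N c i ω).T,
    wsg (F.n i) F.h c d (F.N c i ω)⟩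

/-- the conditioning of the boxes of level `c` : the time block (the boxes are in absolute coordinates, so the rest of the ball
of `P122` is a function of the box up to `O(1)` values) -/
abbrev ball (c : ℕ) : F.S.RV ℤ := F.T c

/-- the random box `W` contains the planks of level `c`, and is admissible for the radius `q` -/
def InW {S' : Sys} (ex : Ext S' F.S) (c q : ℕ) (W : S'.RV Cbx) : Prop :=
  S'.Ae fun i ω => Okb (F.s i) (F.n i) c q (W i ω) ∧ InP (F.s i) (F.n i) c (W i ω) (ex.pull (F.N c) i ω)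

/-- `log2` of the relative volume of a random box, divided by `L` -/
noncomputable def lv {S' : Sys} (c : ℕ) (W : S'.RV Cbx) : S'.RV ℝ := fun i ω =>
  Real.logb 2 (bvol (F.s i) (F.n i) c (W i ω))

/-- excess of the planks of level `c` : supremum over the random boxes `W` which contain them -/
noncomputable def exc (c : ℕ) : ℝ :=
  sSup {v | ∃ (S' : Sys) (ex : Ext S' F.S) (W : S'.RV Cbx), F.InW ex c c W ∧
    v = S'.hc (ex.pull (F.N c)) (Sys.pr W (ex.pull (F.ball c))) - S'.av (F.lv c W)}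

/-- the time deficit -/
noncomputable def D (c d : ℕ) : ℝ := 2 * ((d : ℝ) - c) / K - F.S.hc (F.T c) (F.N d)

/-- the restriction to a dense law -/
def res {S' : Sys} (d : Dns S' F.S) (h : ∀ i ω, 0 < (S'.P i).w ω → 0 < (F.S.P i).w (d.π i ω)) : Flg K where
  C := F.C
  S := S'
  n := F.n
  L_eq := fun i => by rw [d.L_eq]; exact F.L_eq i
  s := F.s
  h := F.h
  hs := F.hs
  h2 := F.h2
  hK := F.hK
  slp := F.slp
  N := fun c => d.pull (F.N c)
  root := fun i ω hω => F.root i _ (h i ω hω)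
  top := fun i ω hω => F.top i _ (h i ω hω)
  step := fun i ω hω => F.step i _ (h i ω hω)

end Flg

/-- the set `D` of planks of level `c` has density at most `lam` in all conformal boxes -/
def Dens (s : Sl) (n c : ℕ) (D : Set Nd) (lam : ℝ) : Prop :=
  ∀ (B : Cbx) (T : ℤ) (U : Finset Nd), Okb s n c c B → (∀ S ∈ U, S ∈ D ∧ S.T = T ∧ InP s n c B S) →
    (U.card : ℝ) ≤ lam * bvol s n c B

/-- counting excess at most `e` at the level `c` -/
def ExU {K : ℕ} (F : Flg K) (c : ℕ) (e : ℝ) : Prop :=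
  ∀ ε : ℝ, 0 < ε → ∀ᶠ i in (uf : Filter ℕ),
    Dens (F.s i) (F.n i) c {S | ∃ ω, 0 < (F.S.P i).w ω ∧ F.N c i ω = S} ((2 : ℝ) ^ ((e + ε) * F.S.L i))

/-- `log2` of the relative volume of the boxes of widths `2^(-k)`, `2^(-j)` at the level `c` -/
def vx (h n c k j : ℕ) : ℕ := 2 * c * n - (k + j) + (2 * c * n - (h * n + 2 * k))

/-- **regular system of flags**, first part -/
structure RegA {K : ℕ} (F : Flg K) (J θ H e : ℕ → ℝ) (W : ℕ → F.S.RV Cbx) (kk jj : ℕ → ℕ → ℕ) : Prop where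
  J0 : ∀ c, c < K → 0 ≤ J c
  e0 : ∀ c, c ≤ K → 0 ≤ e c
  /-- number of children -/
  kid : ∀ c, c < K → Cnt F.S (F.Y (c + 1)) (F.N c) (J c)
  x1 : Cnt F.S F.x (one (S := F.S)) (H 0)
  flag : Unf F.S (Sys.pr F.x (F.Y K)) (H 0 + ∑ c ∈ range K, J c)
  Nu : ∀ c, c ≤ K → Unf F.S (F.N c) (H c)
  N1 : ∀ c, c ≤ K → Cnt F.S (F.N c) (one (S := F.S)) (H c)
  /-- [L] -/
  L : ∀ c, c < K → 2 * θ c ≤ J c
  /-- [B1] -/
  B1 : ∀ c, c < K → Cnt F.S (F.N c) (F.sg c) (2 / K - 2 * θ c)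
  /-- upper bound of all densities -/
  exU : ∀ c, c ≤ K → ExU F c (e c)
  /-- the optimal boxes -/
  Wok : ∀ c, c ≤ K → ∀ᶠ i in (uf : Filter ℕ), ∀ ω, 0 < (F.S.P i).w ω → InP (F.s i) (F.n i) c (W c i ω) (F.N c i ω) ∧
    Okb (F.s i) (F.n i) c c (W c i ω) ∧
    ((1 / 2 : ℝ) ^ (kk c i + 1) ≤ (W c i ω).u2 ∧ (W c i ω).u2 ≤ (1 / 2 : ℝ) ^ kk c i) ∧
    ((1 / 2 : ℝ) ^ (jj c i + 1) ≤ (W c i ω).u1 ∧ (W c i ω).u1 ≤ (1 / 2 : ℝ) ^ jj c i) ∧
    kk c i ≤ jj c i ∧ jj c i ≤ c * F.n i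
  Wfn : ∀ c, c ≤ K → Sys.Fn (W c) (F.N c)
  W1 : ∀ c, c ≤ K → Cnt F.S (Sys.pr (W c) (F.ball c)) (one (S := F.S))
    (H c - e c - F.S.nu (fun i => vx F.h (F.n i) c (kk c i) (jj c i)) + 1 / K)

/-- box functional -/
noncomputable def nV (K : ℕ) (H e : ℕ → ℝ) (c : ℕ) : ℝ := H c + 4 * c / K - e c

/-- branching -/
noncomputable def nM (J : ℕ → ℝ) (c : ℕ) : ℝ := ∑ i ∈ range c, J i

/-- `Δ - 2 Θ` -/
noncomputable def nE (K : ℕ) (J θ H : ℕ → ℝ) (c : ℕ) : ℝ := 4 * c / K - (H 0 + nM J c - H c) - 2 * ∑ i ∈ range c, θ i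

/-- thickness exponent of the planks -/
noncomputable def nα {K : ℕ} (F : Flg K) (jj : ℕ → ℕ → ℕ) (c : ℕ) : ℝ := 2 * c / K - F.S.nu (jj c)

/-- the level `c` is thin -/
def Thin {K : ℕ} (F : Flg K) (e : ℕ → ℝ) (jj : ℕ → ℕ → ℕ) (κ c1 : ℝ) (c : ℕ) : Prop :=
  c1 ≤ e c ∧ nα F jj c - (c : ℝ) / K ≤ κ * e c

/-- normal vector (in the `z'` plane, at fixed time and fixed adapted coordinate of the ray) of the conformal slab of `B` at
the ray of position `y` and slope `s` -/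
noncomputable def bnv (B : Cbx) (y s : Fin 2 → ℝ) : Fin 2 → ℝ := fun k =>
  ![-Real.sin B.θ, Real.cos B.θ] k + B.κ * (s k - B.v k) - 2 * B.α * (y k - B.p k)

/-- angle `φ` of the wide direction of the box `B` at the ray of position `y` and slope `s` :
`bnv = |bnv| (- sin φ, cos φ)` -/
noncomputable def bang (B : Cbx) (y s : Fin 2 → ℝ) : ℝ := Complex.arg ⟨bnv B y s 1, -(bnv B y s 0)⟩

/-- wide direction of the random box `W` at the planks of level `c` -/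
noncomputable def Flg.wd {K : ℕ} (F : Flg K) (c : ℕ) (W : F.S.RV Cbx) : F.S.RV ℝ := fun i ω =>
  bang (W i ω) (py (F.n i) c (F.N c i ω)) (F.s i c (F.N c i ω).τ)

/-- **regular system of flags** with frames `φ c i σ` and normal branching `JF` at the thin levels -/
structure RegB {K : ℕ} (F : Flg K) (J θ H e : ℕ → ℝ) (W : ℕ → F.S.RV Cbx) (kk jj : ℕ → ℕ → ℕ) (κ c1 : ℝ)
    (φ : ℕ → ℕ → Nd → ℝ) (JF : ℕ → ℝ) : Prop extends RegA F J θ H e W kk jj where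
  JF0 : ∀ c, c < K → 0 ≤ JF c
  JF1 : ∀ c, c < K → JF c ≤ 1 / K
  /-- the wide direction of the optimal plank is a function of the piece `sg` -/
  frame : ∀ c, 1 ≤ c → c < K → Thin F e jj κ c1 c → ∀ᶠ i in (uf : Filter ℕ), ∀ ω, 0 < (F.S.P i).w ω →
    |Real.sin (F.wd c (W c) i ω - φ c i (F.sg c i ω))| ≤ (2 : ℝ) ^ (-(c1 / 4 * F.S.L i))
  /-- [B2] count of the tubes in strips -/
  B2 : ∀ c, 1 ≤ c → c < K → Thin F e jj κ c1 c → Cnt F.S (F.N c)
    (Sys.pr (F.sg c) fun i ω => ⌊fn (φ c i (F.sg c i ω)) fun j => ((F.N c i ω).o j : ℝ)⌋) (1 / K - 2 * θ c + JF c)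
  /-- count of the children with the same digit of the normal slope -/
  C2 : ∀ c, 1 ≤ c → c < K → Thin F e jj κ c1 c → Cnt F.S (F.Y (c + 1))
    (Sys.pr (F.N c) fun i ω => ⌊2 ^ ((c + 1) * F.n i) * fn (φ c i (F.sg c i ω)) (F.s i (c + 1) (F.Y (c + 1) i ω))⌋)
    (J c - JF c)

/-- accumulated normal branching of the thin levels -/
noncomputable def ng {K : ℕ} (F : Flg K) (e : ℕ → ℝ) (jj : ℕ → ℕ → ℕ) (κ c1 : ℝ) (JF : ℕ → ℝ) (c : ℕ) : ℝ := by
  classical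
  exact ∑ i ∈ range c, if 1 ≤ i ∧ Thin F e jj κ c1 i then JF i else 0

/-! ### the statements of [EN], price `A` -/

/-- all data of a regular system -/
def AllA (P : ∀ {K : ℕ} (F : Flg K) (J θ H e : ℕ → ℝ) (_ : ℕ → F.S.RV Cbx) (_ _ : ℕ → ℕ → ℕ), Prop) : Prop :=
  ∀ {K : ℕ} (F : Flg K) (J θ H e : ℕ → ℝ) (W : ℕ → F.S.RV Cbx) (kk jj : ℕ → ℕ → ℕ), 1 ≤ K → RegA F J θ H e W kk jj →
    P F J θ H e W kk jj

/-- **E1** entropies -/
def E1 : Prop := AllA fun {K} F J _ H _ _ _ _ =>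
  (∀ c, c ≤ K → F.S.hc (F.N c) (one (S := F.S)) = H c) ∧
  (∀ c d, c ≤ d → d ≤ K → F.S.hc (F.Y d) (F.N c) = nM J d - nM J c) ∧
  (∀ c d, c ≤ d → d ≤ K → F.S.hc (F.Y d) (Sys.pr F.x (F.Y c)) = nM J d - nM J c) ∧
  (∀ c d, c ≤ d → d ≤ K → F.S.hc (F.Y d) (Sys.pr F.x (F.N c)) = nM J d - nM J c) ∧
  (∀ c, c ≤ K → F.S.hc F.x (F.N c) = H 0 + nM J c - H c) ∧
  (∀ c d, c ≤ d → d ≤ K → F.S.hc F.x (Sys.pr (F.N c) (F.N d)) = H 0 + nM J c - H c)

/-- **E2** monotonicity -/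
def E2 : Prop := AllA fun {K} _ J θ H _ _ _ _ => ∀ c d, c ≤ d → d ≤ K → nE K J θ H c ≤ nE K J θ H d

/-- **E3** the excess of the framework is at most the counting excess -/
def E3 : Prop := ∀ {K : ℕ} (F : Flg K) (c : ℕ) (e : ℝ), 1 ≤ K → c ≤ K → 0 ≤ e → ExU F c e → F.exc c ≤ e

/-- **E4 = (K)** Kakeya step of price `A`, for every system of flags and every random box `W'` which contains the piece
`sig c d` -/
def E4 (A : ℝ) : Prop := ∀ {K : ℕ} (F : Flg K) (c d : ℕ), 1 ≤ K → 1 ≤ c → c ≤ d → d ≤ 2 * c → d ≤ K → 2 * (d - c) ≤ F.h →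
  ∀ (S' : Sys) (ex : Ext S' F.S) (W' : S'.RV Cbx), F.InW ex c d W' →
    F.S.hc (F.N d) (one (S := F.S)) + 4 * d / K - F.exc d ≤
      F.S.hc (F.sig c d) (one (S := F.S)) - S'.hc (ex.pull (F.sig c d)) (Sys.pr W' (ex.pull (F.ball c))) +
        4 * c / K + S'.av (F.lv c W') + (A + 1) * F.D c d

/-- **E5** Lipschitz and trivial steps -/
def E5 (A C₀ : ℝ) : Prop := AllA fun {K} _ J θ H e _ _ _ =>
  (∀ i j, i ≤ K → j ≤ K → |e i - e j| ≤ C₀ * |(i:ℝ) - j| / K + C₀ / K) ∧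
  (∀ i, i ≤ K → nV K H e i ≤ nV K H e 0 + (A + 1) * nE K J θ H i + C₀ * i / K + C₀ / K) ∧
  (∀ i j, i ≤ j → j ≤ 2 * i → j ≤ K →
    nV K H e j ≤ nV K H e i + (A + 1) * (nE K J θ H j - nE K J θ H i) + C₀ * ((j:ℝ) - i) / K + C₀ / K)

/-- **E6 = (A)** step with a fat box -/
def E6 (A C₀ : ℝ) : Prop := AllA fun {K} F J θ H e _ _ jj =>
  ∀ c i j, i ≤ j → j ≤ 2 * i → j ≤ K → j ≤ 2 * c → c ≤ K → 2 * (j - i) ≤ F.h → 2 * (j - c) ≤ F.h → 2 * (c - i) ≤ F.h →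
    (j:ℝ) / K ≤ nα F jj c →
    nV K H e j ≤ nV K H e i + (A + 1) * (nE K J θ H j - nE K J θ H i) + C₀ * |(c:ℝ) - i| / K + C₀ / K

/-- **E7 = (S)** step with the tubes themselves -/
def E7 (A C₀ : ℝ) : Prop := AllA fun {K} F J θ H e _ _ _ =>
  ∀ i j, i ≤ j → j ≤ 2 * i → j ≤ K → 2 * (j - i) ≤ F.h →
    nV K H e j ≤ nV K H e i + e i + (A + 1) * (nE K J θ H j - nE K J θ H i) +
      ((nM J j - nM J i) - (nM J i - nM J (2 * i - j))) + C₀ / K

/-- **E8** frames: at neighbouring thin levels `c ≤ c' ≤ d` the wide directions of both optimal planks are functions of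
the piece `sig c d` -/
def E8 (κ C₀ : ℝ) : Prop := AllA fun {K} F _ _ _ e W _ jj =>
  ∀ (c1 : ℝ) (c c' d : ℕ), 0 < c1 → 1 ≤ c → c ≤ c' → c' ≤ d → d ≤ 2 * c → d ≤ K → 2 * (d - c) ≤ F.h →
    ((d:ℝ) - c) / K ≤ κ * c1 → C₀ / K ≤ c1 → Thin F e jj κ c1 c → Thin F e jj κ c1 c' →
    ∃ ψ : ℕ → Nd → ℝ,
      Rare F.S (fun i ω => (2 : ℝ) ^ (-(c1 / 4 * F.S.L i)) < |Real.sin (F.wd c (W c) i ω - ψ i (F.sig c d i ω))|) ∧
      Rare F.S (fun i ω => (2 : ℝ) ^ (-(c1 / 4 * F.S.L i)) < |Real.sin (F.wd c' (W c') i ω - ψ i (F.sig c d i ω))|)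

/-- **E9 = (P)** step with a thin plank -/
def E9 (A κ C₀ : ℝ) : Prop :=
  ∀ {K : ℕ} (F : Flg K) (J θ H e : ℕ → ℝ) (W : ℕ → F.S.RV Cbx) (kk jj : ℕ → ℕ → ℕ) (c1 : ℝ) (φ : ℕ → ℕ → Nd → ℝ)
    (JF : ℕ → ℝ), 1 ≤ K → 0 < c1 → C₀ / K ≤ c1 → RegB F J θ H e W kk jj κ c1 φ JF →
    ∀ i j u, i ≤ j → j ≤ 2 * i → j ≤ K → i + u ≤ j → 2 * (j - i) ≤ F.h → ((j:ℝ) - i) / K ≤ κ * c1 →
      (∀ c, 2 * i - j ≤ c → c ≤ j → Thin F e jj κ c1 c) → |nα F jj i - ((i:ℝ) + u) / K| ≤ 1 / K →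
      nV K H e j ≤ nV K H e i + (A + 1) * (nE K J θ H j - nE K J θ H i) +
        ((ng F e jj κ c1 JF j - ng F e jj κ c1 JF (i + u)) -
          (ng F e jj κ c1 JF (i - u) - ng F e jj κ c1 JF (2 * i - j))) + C₀ / K

end Vale.Agent.P106.R.E
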