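import Vale.Agent.P106.W.Geo
import Vale.Agent.P127.U.BasicA

/-!
# P106 / R / E : the nodes of every system of flags are tame (helper425; port of P122/K931/Zero, helper931)

`tame_N : 1 ≤ K → c ≤ K → Tame (F.N c)` for every `F : Flg K`; `tame_sg`, `tame_sig`, `tame_T`, `tame_Y`, `tame_x`.
-/

set_option autoImplicit false

namespace Vale.Agent.P106.R.E.Flg

open Filter Topology Finset Vale.Agent.P127 Vale.Agent.P127.Stk Vale.Agent.P127.U Vale.Agent.P127.U.Sys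
  Vale.Agent.P106.R.C2 Vale.Agent.P106.WGeo

/-- integers of size `2^(O(L))` are tame -/
theorem tame_int {S : Sys} {N : ℕ → ℕ} (hN : S.Bd N) (C : ℕ) (X : S.RV ℤ)
    (h : S.Ae fun i ω => |(X i ω : ℝ)| ≤ C * 2 ^ N i) : Tame X := by
  have h1 := Sys.tame_dg (S := S) hN (X := fun i ω => (X i ω : ℝ) / 2 ^ N i) C (by
    filter_upwards [h] with i hi ω hω
    have h2 : (0:ℝ) < 2 ^ N i := by positivity
    rw [abs_div, abs_of_pos h2, div_le_iff₀ h2]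
    exact hi ω hω)
  have e : dg (S := S) N (fun i ω => (X i ω : ℝ) / 2 ^ N i) = X := by
    funext i ω
    show ⌊(2:ℝ) ^ N i * ((X i ω : ℝ) / 2 ^ N i)⌋ = X i ω
    rw [mul_div_cancel₀ _ (by positivity), Int.floor_intCast]
  rwa [e] at h1

variable {K : ℕ} (F : Flg K)

theorem bd_mul (hK : 1 ≤ K) (a : ℕ) : F.S.Bd (fun i => a * F.n i) := by
  refine ⟨a, Eventually.of_forall fun i => ?_⟩
  have h1 : F.n i ≤ F.S.L i := by
    rw [F.L_eq]
    exact Nat.le_mul_of_pos_left _ hK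
  have h2 : (F.n i : ℝ) ≤ F.S.L i := by exact_mod_cast h1
  push_cast
  exact mul_le_mul_of_nonneg_left h2 (Nat.cast_nonneg _)

theorem T_bd {i : ℕ} {ω : F.S.Ω i} (hω : 0 < (F.S.P i).w ω) {c : ℕ} (hc : c ≤ K) :
    0 ≤ (F.N c i ω).T ∧ (F.N c i ω).T < 2 ^ (2 * K * F.n i) := by
  have h1 := geo_T F hω (Nat.zero_le c) hc
  have h2 := (F.root i ω hω).2
  rw [← h1]
  have hp : (0:ℤ) < 2 ^ (2 * (c - 0) * F.n i) := by positivity
  refine ⟨Int.ediv_nonneg h2.1 hp.le, lt_of_le_of_lt ?_ h2.2⟩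
  exact Int.ediv_le_self _ h2.1

/-- size of the times -/
theorem gt_bd {i : ℕ} {ω : F.S.Ω i} (hω : 0 < (F.S.P i).w ω) {c : ℕ} (hc : c ≤ K) :
    0 ≤ gt F i ω c ∧ gt F i ω c ≤ 2 ^ (2 * K * F.n i) := by
  obtain ⟨h1, -⟩ := geo_t F hω (Nat.zero_le c) hc
  have h0 := (F.root i ω hω).2
  have h2 : gt F i ω 0 ≤ 2 ^ (2 * K * F.n i) := by
    unfold gt
    have : ((F.N 0 i ω).T : ℝ) ≤ 2 ^ (2 * K * F.n i) := by exact_mod_cast h0.2.le
    simpa using this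
  have h3 : 0 ≤ gt F i ω c := by
    unfold gt
    have : (0:ℝ) ≤ ((F.N c i ω).T : ℝ) := by exact_mod_cast (T_bd F hω hc).1
    positivity
  exact ⟨h3, by linarith⟩

/-- size of the position at the level `c` -/
theorem gx_bd {i : ℕ} {ω : F.S.Ω i} (hω : 0 < (F.S.P i).w ω) {c : ℕ} (hc : c ≤ K) (k : Fin 2) :
    |gx F i ω c k| ≤ (|F.C| + 1 + K * (|F.C| + 2)) * 2 ^ (2 * K * F.n i) := by
  have h1 := geo_pos F hω hc le_rfl k
  have h2 := (F.top i ω hω).1 k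
  have h3 : |F.s i K (F.N K i ω).τ k| ≤ 1 := (F.slp i).bd K _ k le_rfl (geo_cap F hω le_rfl)
  obtain ⟨t0, t1⟩ := geo_t F hω hc le_rfl
  have hpK : (0:ℝ) < 2 ^ (K * F.n i) := by positivity
  have e2 : (2:ℝ) ^ (2 * K * F.n i) = 2 ^ (K * F.n i) * 2 ^ (K * F.n i) := by
    rw [← pow_add]; congr 1; ring
  have hK1 : (1:ℝ) ≤ 2 ^ (K * F.n i) := one_le_pow₀ (by norm_num)
  have e3 : gp F i ω c c k = gx F i ω c k := by unfold gp gx; ring
  have h4 : |gp F i ω c K k| ≤ (|F.C| + 1) * 2 ^ (2 * K * F.n i) := by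
    unfold gp
    refine (abs_add_le _ _).trans ?_
    rw [abs_mul, abs_mul, abs_of_pos hpK, abs_of_nonneg t0]
    have a1 : (2:ℝ) ^ (K * F.n i) * |((F.N K i ω).o k : ℝ)| ≤ |F.C| * 2 ^ (2 * K * F.n i) := by
      rw [e2]
      have : |((F.N K i ω).o k : ℝ)| ≤ |F.C| * 2 ^ (K * F.n i) :=
        h2.trans (mul_le_mul_of_nonneg_right (le_abs_self _) hpK.le)
      nlinarith
    have a2 : (gt F i ω c - gt F i ω K) * |F.s i K (F.N K i ω).τ k| ≤ 1 * 2 ^ (2 * K * F.n i) := by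
      rw [one_mul]
      calc _ ≤ (gt F i ω c - gt F i ω K) * 1 := mul_le_mul_of_nonneg_left h3 t0
        _ ≤ _ := by rw [mul_one]; exact t1
    linarith
  have h5 : ((K : ℝ) - c) * (|F.C| + 2) * 2 ^ (K * F.n i) ≤ K * (|F.C| + 2) * 2 ^ (2 * K * F.n i) := by
    have hc0 : (0:ℝ) ≤ c := Nat.cast_nonneg c
    have hcK : (c:ℝ) ≤ K := by exact_mod_cast hc
    have a3 : (2:ℝ) ^ (K * F.n i) ≤ 2 ^ (2 * K * F.n i) := by
      rw [e2]
      exact le_mul_of_one_le_left hpK.le hK1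
    have a4 : ((K : ℝ) - c) * (|F.C| + 2) ≤ K * (|F.C| + 2) :=
      mul_le_mul_of_nonneg_right (by linarith) (by positivity)
    exact mul_le_mul a4 a3 hpK.le (by positivity)
  rw [e3] at h1
  have h6 := abs_sub_abs_le_abs_sub (gx F i ω c k) (gp F i ω c K k)
  rw [abs_sub_comm] at h6
  have h7 : (|F.C| + 1 + K * (|F.C| + 2)) * (2:ℝ) ^ (2 * K * F.n i) =
      (|F.C| + 1) * 2 ^ (2 * K * F.n i) + K * (|F.C| + 2) * 2 ^ (2 * K * F.n i) := by ring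
  rw [h7]
  linarith

theorem o_bd {i : ℕ} {ω : F.S.Ω i} (hω : 0 < (F.S.P i).w ω) {c : ℕ} (hc : c ≤ K) (k : Fin 2) :
    |((F.N c i ω).o k : ℝ)| ≤ (|F.C| + 1 + K * (|F.C| + 2)) * 2 ^ (2 * K * F.n i) := by
  refine le_trans ?_ (gx_bd F hω hc k)
  have hpc1 : (1:ℝ) ≤ 2 ^ (c * F.n i) := one_le_pow₀ (by norm_num)
  unfold gx
  rw [abs_mul, abs_of_pos (by positivity : (0:ℝ) < 2 ^ (c * F.n i))]
  exact le_mul_of_one_le_left (abs_nonneg _) hpc1

theorem w_bd {i : ℕ} {ω : F.S.Ω i} (hω : 0 < (F.S.P i).w ω) {c : ℕ} (hc : c ≤ K) :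
    |((F.N c i ω).w : ℝ)| ≤ (|F.C| + K * (2 * K * (|F.C| + 2) + 4) +
      2 * (2 * (|F.C| + 1 + K * (|F.C| + 2)) + 1)) * 2 ^ (2 * K * F.n i) := by
  have h1 := geo_w F hω hc le_rfl
  have h2 := (F.top i ω hω).2
  have hH1 : (1:ℝ) ≤ 2 ^ (F.h * F.n i) := one_le_pow₀ (by norm_num)
  have hH : (0:ℝ) < 2 ^ (F.h * F.n i) := by positivity
  have hR : (0:ℝ) < 2 ^ (2 * K * F.n i) := by positivity
  have hHR : (2:ℝ) ^ (F.h * F.n i) ≤ 2 ^ (2 * K * F.n i) :=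
    pow_le_pow_right₀ (by norm_num) (Nat.mul_le_mul_right _ (by have := F.hK; omega))
  obtain ⟨t0, t1⟩ := gt_bd F hω hc
  set M : ℝ := |F.C| + 1 + K * (|F.C| + 2) with hM
  have hM0 : 0 ≤ M := by positivity
  have sb : ∀ d, d ≤ K → ∀ k, |gs F i ω d k| ≤ 1 := fun d hd k => (F.slp i).bd d _ k hd (geo_cap F hω hd)
  have hPhi : |Phi (gx F i ω c) (gt F i ω c) (gs F i ω c) (gs F i ω K)| ≤ 2 * (2 * M + 1) * 2 ^ (2 * K * F.n i) := by
    have hb : ∀ k, |-(gx F i ω c k) * (gs F i ω K k - gs F i ω c k) +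
        gt F i ω c * (gs F i ω K k ^ 2 - gs F i ω c k ^ 2) / 2| ≤ (2 * M + 1) * 2 ^ (2 * K * F.n i) := by
      intro k
      have s1 := sb c hc k
      have s2 := sb K le_rfl k
      have g := gx_bd F hω hc k
      rw [← hM] at g
      refine (abs_add_le _ _).trans ?_
      have a1 : |-(gx F i ω c k) * (gs F i ω K k - gs F i ω c k)| ≤ M * 2 ^ (2 * K * F.n i) * 2 := by
        rw [abs_mul, abs_neg]
        refine mul_le_mul g ?_ (abs_nonneg _) (by positivity)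
        rw [abs_le] at s1 s2 ⊢
        constructor <;> linarith [s1.1, s1.2, s2.1, s2.2]
      have a2 : |gt F i ω c * (gs F i ω K k ^ 2 - gs F i ω c k ^ 2) / 2| ≤ 2 ^ (2 * K * F.n i) := by
        have q1 : gs F i ω K k ^ 2 ≤ 1 := (sq_le_one_iff_abs_le_one _).2 s2
        have q2 : gs F i ω c k ^ 2 ≤ 1 := (sq_le_one_iff_abs_le_one _).2 s1
        have q3 : |gs F i ω K k ^ 2 - gs F i ω c k ^ 2| ≤ 1 := by
          rw [abs_le]
          constructor <;> linarith [sq_nonneg (gs F i ω K k), sq_nonneg (gs F i ω c k)]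
        rw [abs_div, abs_mul, abs_of_nonneg t0, abs_of_pos (by norm_num : (0:ℝ) < 2)]
        have q4 : gt F i ω c * |gs F i ω K k ^ 2 - gs F i ω c k ^ 2| ≤ 2 ^ (2 * K * F.n i) * 1 :=
          mul_le_mul t1 q3 (abs_nonneg _) hR.le
        linarith
      linarith
    unfold Phi
    rw [Fin.sum_univ_two]
    refine (abs_add_le _ _).trans ?_
    linarith [hb 0, hb 1]
  have h3 : |(2:ℝ) ^ (F.h * F.n i) * ((F.N K i ω).w : ℝ)| ≤ |F.C| * 2 ^ (2 * K * F.n i) := by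
    rw [abs_mul, abs_of_pos hH, mul_comm]
    exact h2.trans (mul_le_mul_of_nonneg_right (le_abs_self _) hR.le)
  have h4 : ((K : ℝ) - c) * (2 * K * (|F.C| + 2) + 4) * 2 ^ (F.h * F.n i) ≤
      K * (2 * K * (|F.C| + 2) + 4) * 2 ^ (2 * K * F.n i) := by
    have hc0 : (0:ℝ) ≤ c := Nat.cast_nonneg c
    have a4 : ((K : ℝ) - c) * (2 * K * (|F.C| + 2) + 4) ≤ K * (2 * K * (|F.C| + 2) + 4) :=
      mul_le_mul_of_nonneg_right (by linarith) (by positivity)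
    exact mul_le_mul a4 hHR hH.le (by positivity)
  have h5 : |((F.N c i ω).w : ℝ)| ≤ |(2:ℝ) ^ (F.h * F.n i) * ((F.N c i ω).w : ℝ)| := by
    rw [abs_mul, abs_of_pos hH]
    exact le_mul_of_one_le_left (abs_nonneg _) hH1
  refine h5.trans ?_
  rw [abs_le] at h1 h3 hPhi
  have e : (|F.C| + K * (2 * K * (|F.C| + 2) + 4) + 2 * (2 * M + 1)) * (2:ℝ) ^ (2 * K * F.n i) =
      |F.C| * 2 ^ (2 * K * F.n i) + K * (2 * K * (|F.C| + 2) + 4) * 2 ^ (2 * K * F.n i) +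
        2 * (2 * M + 1) * 2 ^ (2 * K * F.n i) := by ring
  rw [e, abs_le]
  constructor <;> linarith [h1.1, h1.2, h3.1, h3.2, hPhi.1, hPhi.2]

theorem tame_T (hK : 1 ≤ K) {c : ℕ} (hc : c ≤ K) : Tame (F.T c) := by
  refine tame_int (bd_mul F hK (2 * K)) 1 _ (Eventually.of_forall fun i ω hω => ?_)
  have h := T_bd F hω hc
  have h1 : (0:ℝ) ≤ ((F.N c i ω).T : ℝ) := by exact_mod_cast h.1
  have h2 : ((F.N c i ω).T : ℝ) ≤ 2 ^ (2 * K * F.n i) := by exact_mod_cast h.2.le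
  show |((F.N c i ω).T : ℝ)| ≤ _
  rw [abs_of_nonneg h1]
  push_cast
  linarith

theorem tame_o (hK : 1 ≤ K) {c : ℕ} (hc : c ≤ K) (k : Fin 2) :
    Tame (S := F.S) (fun i ω => (F.N c i ω).o k) := by
  refine tame_int (bd_mul F hK (2 * K)) ⌈|F.C| + 1 + K * (|F.C| + 2)⌉₊ _
    (Eventually.of_forall fun i ω hω => ?_)
  refine (o_bd F hω hc k).trans ?_
  exact mul_le_mul_of_nonneg_right (Nat.le_ceil _) (by positivity)

theorem tame_w (hK : 1 ≤ K) {c : ℕ} (hc : c ≤ K) :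
    Tame (S := F.S) (fun i ω => (F.N c i ω).w) := by
  refine tame_int (bd_mul F hK (2 * K)) ⌈|F.C| + K * (2 * K * (|F.C| + 2) + 4) +
      2 * (2 * (|F.C| + 1 + K * (|F.C| + 2)) + 1)⌉₊ _ (Eventually.of_forall fun i ω hω => ?_)
  refine (w_bd F hω hc).trans ?_
  exact mul_le_mul_of_nonneg_right (Nat.le_ceil _) (by positivity)

theorem tame_τ (hK : 1 ≤ K) {c : ℕ} (hc : c ≤ K) (k : Fin 2) :
    Tame (S := F.S) (fun i ω => (F.N c i ω).τ k) := by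
  refine tame_int (bd_mul F hK c) 1 _ (Eventually.of_forall fun i ω hω => ?_)
  have h := geo_cap F hω hc k
  have h1 : (0:ℝ) ≤ ((F.N c i ω).τ k : ℝ) := by exact_mod_cast h.1
  have h2 : ((F.N c i ω).τ k : ℝ) ≤ 2 ^ (c * F.n i) := by exact_mod_cast h.2.le
  show |((F.N c i ω).τ k : ℝ)| ≤ ((1:ℕ):ℝ) * 2 ^ (c * F.n i)
  rw [abs_of_nonneg h1, Nat.cast_one, one_mul]
  exact h2

/-- **the nodes are tame** -/
theorem tame_N (hK : 1 ≤ K) {c : ℕ} (hc : c ≤ K) : Tame (F.N c) := by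
  have h1 := ((tame_τ F hK hc 0).pr (tame_τ F hK hc 1)).pr
    (((tame_o F hK hc 0).pr (tame_o F hK hc 1)).pr ((tame_T F hK hc).pr (tame_w F hK hc)))
  refine h1.mono (Eventually.of_forall fun i ω ω' _ _ e => ?_)
  simp only [pr_apply, Prod.mk.injEq] at e
  obtain ⟨⟨e1, e2⟩, ⟨e3, e4⟩, e5, e6⟩ := e
  refine Nd.ext ?_ ?_ e5 e6
  · funext k
    fin_cases k
    · exact e1
    · exact e2
  · funext k
    fin_cases k
    · exact e3
    · exact e4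

theorem tame_x (hK : 1 ≤ K) : Tame F.x := tame_N F hK (Nat.zero_le _)

theorem tame_Y (hK : 1 ≤ K) {c : ℕ} (hc : c ≤ K) : Tame (F.Y c) :=
  (tame_N F hK hc).mono (Eventually.of_forall fun _ _ _ _ _ e => congrArg Nd.τ e)

theorem tame_sg (hK : 1 ≤ K) {c : ℕ} (hc : c ≤ K) : Tame (F.sg c) :=
  (tame_N F hK hc).mono (Eventually.of_forall fun i ω ω' _ _ e => by
    have e' : F.N c i ω = F.N c i ω' := e
    show (F.N c i ω).sg (F.n i) = (F.N c i ω').sg (F.n i)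
    rw [e'])

theorem tame_sig (hK : 1 ≤ K) {c : ℕ} (hc : c ≤ K) (d : ℕ) : Tame (F.sig c d) :=
  (tame_N F hK hc).mono (Eventually.of_forall fun i ω ω' _ _ e => by
    have e' : F.N c i ω = F.N c i ω' := e
    unfold Flg.sig
    rw [e'])

end Vale.Agent.P106.R.E.Flg
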