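import Vale.Agent.P106.R.E.Defs
import Vale.Agent.P106.R.C.Bx

/-! # P106 / R / E : elementary facts about `InP`, `Okb`, `bvol`, `Dens` (helper428) -/

set_option autoImplicit false

namespace Vale.Agent.P106.R.E

open Vale.Agent.P106.R.C2
open Vale.Agent.P106.W (Cbx)

theorem two_half (n c : ℕ) : (2 : ℝ) ^ (c * n) / 2 ^ (2 * c * n) = (1 / 2 : ℝ) ^ (c * n) := by
  rw [one_div, inv_pow, div_eq_iff (by positivity), show 2 * c * n = c * n + c * n by ring, pow_add,
    ← mul_assoc, inv_mul_cancel₀ (by positivity), one_mul]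

theorem okb_self {s : Sl} {n c : ℕ} {B : Cbx} :
    Okb s n c c B ↔ B.ok (1 / 8) ((1 / 2 : ℝ) ^ (c * n)) (W.hh n s.h c) := by
  unfold Okb
  rw [two_half]

theorem one_le_bvol {s : Sl} {n c : ℕ} {B : Cbx} (h : Okb s n c c B) : 1 ≤ bvol s n c B :=
  vol_ge_one (rr_pos n c) (okb_self.1 h)

theorem bvol_pos {s : Sl} {n c : ℕ} {B : Cbx} (h : Okb s n c c B) : 0 < bvol s n c B := one_pos.trans_le (one_le_bvol h)

theorem Dens.anti {s : Sl} {n c : ℕ} {D D' : Set Nd} {lam : ℝ} (h : Dens s n c D lam) (hD : D' ⊆ D) :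
    Dens s n c D' lam := fun B T U h1 h4 => h B T U h1 fun S hS => ⟨hD (h4 S hS).1, (h4 S hS).2⟩

theorem Dens.mono {s : Sl} {n c : ℕ} {D : Set Nd} {lam lam' : ℝ} (h : Dens s n c D lam) (hl : lam ≤ lam') :
    Dens s n c D lam' := fun B T U h1 h4 =>
  (h B T U h1 h4).trans (mul_le_mul_of_nonneg_right hl (bvol_pos h1).le)

/-- the box of one plank -/
noncomputable def own (s : Sl) (n c : ℕ) (S : Nd) : Cbx :=
  ⟨0, (1 / 2 : ℝ) ^ (c * n), (1 / 2 : ℝ) ^ (c * n), 0, 0, py n c S, s c S.τ, pz s n c S⟩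

theorem own_okb (s : Sl) (n c : ℕ) (S : Nd) : Okb s n c c (own s n c S) := by
  rw [okb_self]
  have h0 := (rr_pos n c).le
  refine ⟨le_rfl, le_rfl, rr_le n c, ?_, ?_, ?_, ?_⟩ <;> simp [own]

theorem own_bvol (s : Sl) (n c : ℕ) (S : Nd) : bvol s n c (own s n c S) = 1 := own_vol n s.h c S

theorem own_inP (s : Sl) (n c : ℕ) (S : Nd) : InP s n c (own s n c S) S := by
  have h0 := (rr_pos n c).le
  have h1 : (0 : ℝ) ≤ max (((1 / 2 : ℝ) ^ (c * n)) ^ 2) (W.hh n s.h c) := le_max_of_le_left (by positivity)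
  refine ⟨fun k => ?_, fun k => ?_, ?_, ?_, ?_⟩
  · simp only [own, sub_self, abs_zero]; exact h0
  · simp only [own, sub_self, abs_zero]; exact h0
  · simp only [own, sub_self, mul_zero, Finset.sum_const_zero, add_zero, abs_zero]; exact h1
  · simp only [own, sub_self, fn, Pi.zero_apply, mul_zero, zero_mul, add_zero, abs_zero, sub_zero, neg_zero]
    exact h0
  · simp only [own, sub_self, fn, Pi.zero_apply, mul_zero, zero_mul, add_zero, abs_zero, sub_zero, neg_zero, zero_div,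
      Finset.sum_const_zero]
    simpa using h0

theorem inP_iff {s : Sl} {n c : ℕ} {B : Cbx} {S : Nd} (hs : s = coneSl n s.h) :
    InP s n c B S ↔ W.InB n s.h c B S.toW := by
  have h1 : s c S.τ = W.s0 n c S.τ := by
    conv_lhs => rw [hs]
    rfl
  unfold InP W.InB pz W.rz
  rw [h1]
  exact Iff.rfl

end Vale.Agent.P106.R.E
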