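import Vale.Agent.P106.R.E.RGC
import Vale.Agent.P106.R.H11.RG1
import Vale.Agent.P106.R.H425.RG2
import Vale.Agent.P106.R.H428.RG0Lit
import Vale.Agent.P106.R.H563.Uni
import Vale.Agent.P106.R.H616.RGmin

/-!
# P106 / R, copy of P122 / E : `StRG` from the counts of the uniform law (helper357)

Plugged: `RG0` (428), `RGmin` (616), uniformity (563), optimal planks (286), `RG1` (11), `RG2` (425).
-/

set_option autoImplicit false

namespace Vale.Agent.P106.R.E

open Vale.Agent.P106.R.H610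

theorem pUni : H11.PUni := by
  intro K Z W hS
  obtain ⟨W', h1, _, H, _, h3⟩ := H563.uni W fun W' h => (hS W' h).1
  exact ⟨W', h1, H, fun c hc => (h3 c hc).2⟩

theorem rG1_of (h : H11.PLaw) : RG1 := H11.rg1_of H616.rgmin pUni h

/-- **[RG]** -/
theorem strg_of_law (h : H11.PLaw) {N : ℝ} (hN : 1 ≤ N) (κ : ℝ) (hκ : 0 < κ) (hκ1 : κ ≤ 1) : S.StRG N κ :=
  strg_of hN (H428.rg0_lit hN) (rG1_of h) H425.rG2 hκ hκ1

end Vale.Agent.P106.R.E
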